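import Vale.Agent.P281.H167.GM.Iface
import Vale.Agent.P272.K.C3.DiffAlg
import Mathlib.LinearAlgebra.Lagrange
import Mathlib.LinearAlgebra.Matrix.Polynomial

/-! P281, theorem GM, block GM-C: the mixed intersection numbers depend only on the classes. -/

open scoped Manifold ContDiff Topology ComplexOrder
open Set Filter Vale.Agent.P281.J Vale.Agent.P272.K Vale.Agent.P272.K.AMP Vale.Agent.P299
open Vale.Agent.P272.K.INT (intX IsClosedForm)

noncomputable section

namespace Vale.Agent.P281.H227.GMC

open Vale.Agent.P281.H713.SA Vale.Agent.P281.H167.GM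

variable {n : ℕ}

section alg

open Polynomial

/-- the polynomial `det (A + X B)` -/
def dq (A B : Matrix (Fin n) (Fin n) ℂ) : ℂ[X] :=
  ((X : ℂ[X]) • B.map C + A.map C).det

lemma dq_natDegree (A B : Matrix (Fin n) (Fin n) ℂ) : (dq A B).natDegree ≤ n := by
  have h := Polynomial.natDegree_det_X_add_C_le B A
  rwa [Fintype.card_fin] at h

lemma dq_eval (A B : Matrix (Fin n) (Fin n) ℂ) (t : ℂ) : (dq A B).eval t = (A + t • B).det := by
  have h := RingHom.map_det (Polynomial.evalRingHom t) ((X : ℂ[X]) • B.map C + A.map C)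
  rw [Polynomial.coe_evalRingHom] at h
  unfold dq
  rw [h]
  congr 1
  ext i j
  simp only [RingHom.mapMatrix_apply, Matrix.map_apply, Matrix.add_apply, Matrix.smul_apply,
    smul_eq_mul, Polynomial.coe_evalRingHom, Polynomial.eval_add, Polynomial.eval_mul,
    Polynomial.eval_X, Polynomial.eval_C]
  ring

lemma dq_coeff_one (A B : Matrix (Fin n) (Fin n) ℂ) :
    (dq A B).coeff 1 = (A.adjugate * B).trace := by
  set M : Matrix (Fin n) (Fin n) ℂ[X] := (X : ℂ[X]) • B.map C + A.map C with hM
  set D : Derivation ℤ ℂ[X] ℂ[X] := (Polynomial.derivative' (R := ℂ)).restrictScalars ℤ with hD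
  have h1 : D M.det = (M.adjugate * Vale.Agent.P272.K.C3.mD D M).trace :=
    Vale.Agent.P272.K.C3.D_det D M
  have h2 : Vale.Agent.P272.K.C3.mD D M = B.map C := by
    ext1 i j
    change derivative (M i j) = C (B i j)
    simp [hM]
  have h3 : D M.det = derivative (dq A B) := rfl
  have h4 : (derivative (dq A B)).eval 0 = (dq A B).coeff 1 := by
    rw [← Polynomial.coeff_zero_eq_eval_zero, Polynomial.coeff_derivative]; simp
  rw [← h4, ← h3, h1, h2]
  have h5 := AddMonoidHom.map_trace (Polynomial.evalRingHom (0 : ℂ)) (M.adjugate * B.map C)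
  rw [Polynomial.coe_evalRingHom] at h5
  rw [h5]
  congr 1
  rw [← Polynomial.coe_evalRingHom]
  have h6 := RingHom.map_adjugate (Polynomial.evalRingHom (0 : ℂ)) M
  rw [RingHom.mapMatrix_apply, RingHom.mapMatrix_apply] at h6
  rw [Matrix.map_mul, h6]
  congr 1
  · congr 1
    ext i j
    simp [hM]
  · ext i j
    simp

/-- the real polynomial `Re det (A + X B)` -/
def rq (A B : Matrix (Fin n) (Fin n) ℂ) : ℝ[X] :=
  ∑ j ∈ Finset.range (n + 1), C ((dq A B).coeff j).re * X ^ j

lemma rq_eval (A B : Matrix (Fin n) (Fin n) ℂ) (t : ℝ) :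
    (rq A B).eval t = (A + (t : ℂ) • B).det.re := by
  rw [← dq_eval, Polynomial.eval_eq_sum_range' (Nat.lt_succ_of_le (dq_natDegree A B)),
    rq, Polynomial.eval_finsetSum, Complex.re_sum]
  refine Finset.sum_congr rfl fun j _ => ?_
  rw [← Complex.ofReal_pow, Complex.re_mul_ofReal]
  simp

lemma rq_coeff (A B : Matrix (Fin n) (Fin n) ℂ) {k : ℕ} (hk : k ≤ n) :
    (rq A B).coeff k = ((dq A B).coeff k).re := by
  simp only [rq, Polynomial.finsetSum_coeff, Polynomial.coeff_C_mul, Polynomial.coeff_X_pow,
    mul_ite, mul_one, mul_zero]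
  rw [Finset.sum_ite_eq, if_pos (Finset.mem_range.2 (Nat.lt_succ_of_le hk))]

lemma rq_degree (A B : Matrix (Fin n) (Fin n) ℂ) :
    (rq A B).degree < (Finset.range (n + 1)).card := by
  rw [Finset.card_range]
  refine (Polynomial.degree_sum_le _ _).trans_lt ?_
  rw [Finset.sup_lt_iff (by exact_mod_cast WithBot.bot_lt_coe _)]
  intro j hj
  refine (Polynomial.degree_C_mul_X_pow_le _ _).trans_lt ?_
  exact_mod_cast Finset.mem_range.1 hj

/-- the nodes -/
def nd (i : ℕ) : ℝ := (i : ℝ)

/-- the Lagrange basis -/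
def lb (n i : ℕ) : ℝ[X] := Lagrange.basis (Finset.range (n + 1)) nd i

lemma rq_eq (A B : Matrix (Fin n) (Fin n) ℂ) :
    rq A B = ∑ i ∈ Finset.range (n + 1), C ((A + ((nd i : ℝ) : ℂ) • B).det.re) * lb n i := by
  have h := Lagrange.eq_interpolate (s := Finset.range (n + 1)) (v := nd)
    (fun i _ j _ hij => by simpa [nd] using hij) (rq_degree A B)
  rw [Lagrange.interpolate_apply] at h
  refine h.trans (Finset.sum_congr rfl fun i _ => ?_)
  rw [rq_eval]; rfl

/-- interpolation of the determinant -/
lemma det_interp (A B : Matrix (Fin n) (Fin n) ℂ) (t : ℝ) : (A + (t : ℂ) • B).det.re =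
    ∑ i ∈ Finset.range (n + 1), (lb n i).eval t * (A + ((nd i : ℝ) : ℂ) • B).det.re := by
  rw [← rq_eval, rq_eq, Polynomial.eval_finsetSum]
  refine Finset.sum_congr rfl fun i _ => ?_
  rw [Polynomial.eval_mul, Polynomial.eval_C, mul_comm]

/-- interpolation of the derivative of the determinant -/
lemma mixD_interp (A B : Matrix (Fin n) (Fin n) ℂ) : mixD A B =
    ∑ i ∈ Finset.range (n + 1), (lb n i).coeff 1 * (A + ((nd i : ℝ) : ℂ) • B).det.re := by
  rcases Nat.eq_zero_or_pos n with h0 | h0
  · subst h0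
    have h1 : lb 0 0 = 1 := by simp [lb]
    simp [mixD, Matrix.trace, h1, Polynomial.coeff_one]
  · unfold mixD
    rw [← dq_coeff_one, ← rq_coeff A B h0, rq_eq, Polynomial.finsetSum_coeff]
    refine Finset.sum_congr rfl fun i _ => ?_
    rw [Polynomial.coeff_C_mul, mul_comm]

end alg

variable {X : Type} [TopologicalSpace X] [ChartedSpace (Cm n) X]

section man

variable [IsManifold 𝓘(ℂ, Cm n) ω X]

lemma isClosed_addF {A B : D.FormM n X} (hA : IsClosedForm A) (hB : IsClosedForm B) (t : ℝ) :
    IsClosedForm (addF A t B) := hA.add (hB.smul (t : ℂ))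

lemma isClosed_addH {A : D.FormM n X} (hA : IsClosedForm A) {u : X → ℝ}
    (hu : SmoothFn (n := n) u) : IsClosedForm (addH A u) :=
  hA.add (INT.isClosedForm_cHess hu)

variable [T2Space X] [CompactSpace X]

/-- the mixed intersection number through the volumes -/
lemma mixX_eq {A B : D.FormM n X} (hA : IsClosedForm A) (hB : IsClosedForm B) :
    mixX A B = ∑ i ∈ Finset.range (n + 1), (lb n i).coeff 1 *
      intX (fun (e : Chart n X) z => (addF A (nd i) B e z).det.re) := by
  have h1 : mixX A B = intX fun (e : Chart n X) z => ∑ i ∈ Finset.range (n + 1),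
      (lb n i).coeff 1 * (addF A (nd i) B e z).det.re := by
    unfold mixX
    refine INT.intX_congr fun e x _ => ?_
    exact mixD_interp _ _
  rw [h1, INT.intX_sum]
  · refine Finset.sum_congr rfl fun i _ => ?_
    rw [INT.intX_const_mul]
  · intro i _
    exact (isClosed_addF hA hB (nd i)).isDensity.const_mul _

/-- the volume of `A + t B` through the volumes of `A + i B` -/
lemma vol_interp {A B : D.FormM n X} (hA : IsClosedForm A) (hB : IsClosedForm B) (t : ℝ) :
    intX (fun (e : Chart n X) z => (addF A t B e z).det.re) =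
      ∑ i ∈ Finset.range (n + 1), (lb n i).eval t *
        intX (fun (e : Chart n X) z => (addF A (nd i) B e z).det.re) := by
  have h1 : intX (fun (e : Chart n X) z => (addF A t B e z).det.re) =
      intX fun (e : Chart n X) z => ∑ i ∈ Finset.range (n + 1),
      (lb n i).eval t * (addF A (nd i) B e z).det.re := by
    refine INT.intX_congr fun e x _ => ?_
    exact det_interp _ _ t
  rw [h1, INT.intX_sum]
  · refine Finset.sum_congr rfl fun i _ => ?_
    rw [INT.intX_const_mul]
  · intro i _
    exact (isClosed_addF hA hB (nd i)).isDensity.const_mul _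

end man

/-- **GM-C1** -/
theorem cohPart : CohPart := by
  intro n X _ _ _ _ _ A B hA hB u v hu hv
  rw [mixX_eq (isClosed_addH hA hu) (isClosed_addH hB hv), mixX_eq hA hB]
  refine Finset.sum_congr rfl fun i _ => ?_
  congr 1
  have hw : SmoothFn (n := n) (fun x => u x + nd i * v x) := fun e x h =>
    (hu e x h).add (contDiffAt_const.mul (hv e x h))
  rw [← INT.intX_det_add_cHess (isClosed_addF hA hB (nd i)) hw]
  refine INT.intX_congr fun e x hx => ?_
  congr 2
  have h1 : ContDiffAt ℝ 2 (fun y => u (e.symm y)) (e x) := INT.SmoothFn.two hu e x hx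
  have h2 : ContDiffAt ℝ 2 (fun y => v (e.symm y)) (e x) := INT.SmoothFn.two hv e x hx
  have h3 := cHess_add h1 (contDiffAt_const.mul h2 :
    ContDiffAt ℝ 2 (fun y => nd i * v (e.symm y)) (e x))
  rw [cHess_const_mul (nd i) h2] at h3
  rw [h3]
  simp only [addF, addH, smul_add]
  abel

/-- **GM-C2** -/
theorem epsPart : EpsPart := by
  intro n X _ _ _ _ _ A B C hA hB hC
  have h1 : ∀ ε : ℝ, mixX (addF A ε C) B = ∑ i ∈ Finset.range (n + 1), (lb n i).coeff 1 *
      ∑ j ∈ Finset.range (n + 1), (lb n j).eval ε *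
        intX (fun (e : Chart n X) z => (addF (addF A (nd i) B) (nd j) C e z).det.re) := by
    intro ε
    rw [mixX_eq (isClosed_addF hA hC ε) hB]
    refine Finset.sum_congr rfl fun i _ => ?_
    congr 1
    rw [← vol_interp (isClosed_addF hA hB (nd i)) hC]
    refine INT.intX_congr fun e x hx => ?_
    congr 2
    simp only [addF]
    abel
  have h0 : mixX A B = mixX (addF A 0 C) B := by
    refine INT.intX_congr fun e x hx => ?_
    simp [addF]
  rw [h0]
  have h2 : Continuous fun ε : ℝ => mixX (addF A ε C) B := by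
    simp only [h1]
    refine continuous_finsetSum _ fun i _ => continuous_const.mul ?_
    refine continuous_finsetSum _ fun j _ => ?_
    exact ((lb n j).continuous).mul continuous_const
  exact (h2.tendsto 0).mono_left nhdsWithin_le_nhds

end Vale.Agent.P281.H227.GMC
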